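import Crest.Agent.N255.Ma.Wd
import Crest.Agent.N255.Io.Mon
import Crest.Agent.N255.Jt.O

/-!
# Row 255 (helper11): the fields `hy` and `adm` from orders in the twisted ring
-/

set_option autoImplicit false
set_option linter.unusedSectionVars false
open Set Function Sum

noncomputable section

namespace Crest.Agent.N255.Io

open _root_.N255.Dr _root_.N255.Dr.O Cs Cs.Tw Ku Jt Ma
open _root_.N255.Core (Wall)

variable {p : ℕ} [Fact p.Prime] {J : Fin 3 → Type} [∀ i, Fintype (J i)]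
  {G : Gr (Gm p) (ZMod p) (O p (ZMod p) (Σ i, Uv p (J i)))}

variable (G) in
/-- the variable `x` of slot `i` in the twisted ring of the vertex -/
def x2 (i : Fin 3) (x : J i ⊕ Bool) : Tw G := up G (∑ γ, z ⟨i, (x, γ)⟩)

variable (p J) in
/-- the variables `y` and `w` of all slots -/
def YW2 : Set (Σ i, Uv p (J i)) := {q | ∃ c, q.2.1 = inr c}

theorem pr_x2 (hO : ∀ q, G.Hg q.2.2 (z q)) (i : Fin 3) (x : J i ⊕ Bool) (γ : Gm p) :
    G.pr γ (o G (x2 G i x)) = z ⟨i, (x, γ)⟩ :=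
  pr_XX (e := fun q : Uv p (J i) => (⟨i, q⟩ : Σ i, Uv p (J i))) hO (fun _ => rfl) x γ

theorem x2_in {I : Ideal (O p (ZMod p) (Σ i, Uv p (J i)))} {i : Fin 3} {x : J i ⊕ Bool}
    (h : ∀ γ, z ⟨i, (x, γ)⟩ ∈ I) : In I (x2 G i x) := sum_mem fun γ _ => h γ

theorem pr_xv {L : Type} [Fintype L] (x : L ⊕ Bool) (γ : Gm p) :
    (GU p L).pr γ (o _ (xv p x)) = z (x, γ) :=
  pr_XX (e := fun q : Uv p L => q) (GU_z p L) (fun _ => rfl) x γ

variable {i : Fin 3} {io : OU p (J i) →ₐ[ZMod p] O p (ZMod p) (Σ i, Uv p (J i))}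

/-- the components of the correction -/
theorem pr_cor (hO : ∀ q, G.Hg q.2.2 (z q)) (h : (GU p (J i)).Hom G io) (x : J i ⊕ Bool) (γ : Gm p) :
    G.pr γ (o G (Tw.map h (xv p x) - x2 G i x)) = io (z (x, γ)) - z ⟨i, (x, γ)⟩ := by
  rw [map_sub, map_sub, pr_x2 hO, o_map, ← h, pr_xv]

theorem cor_mem (hO : ∀ q, G.Hg q.2.2 (z q)) (h : (GU p (J i)).Hom G io)
    {I : Ideal (O p (ZMod p) (Σ i, Uv p (J i)))} (hI : G.Id I) {x : J i ⊕ Bool}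
    (hx : In I (Tw.map h (xv p x) - x2 G i x)) (γ : Gm p) : io (z (x, γ)) - z ⟨i, (x, γ)⟩ ∈ I :=
  pr_cor hO h x γ ▸ hI γ _ hx

theorem cor_eq (hO : ∀ q, G.Hg q.2.2 (z q)) (h : (GU p (J i)).Hom G io) {x : J i ⊕ Bool}
    (hx : Tw.map h (xv p x) = x2 G i x) (γ : Gm p) : io (z (x, γ)) = z ⟨i, (x, γ)⟩ :=
  sub_eq_zero.1 (by rw [← pr_cor hO h, hx, sub_self, map_zero, map_zero])

theorem kdU_none {L : Type} {τ : Ma.Ty L} {x : Uv p L} : τ.kdU p x = none ↔ x.1 = inr true := by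
  rcases x with ⟨j | _ | _, γ⟩ <;> simp [Ty.kdU]

/-- the image of the ideal of `y`, `w` of a wall -/
theorem map_YW (hO : ∀ q, G.Hg q.2.2 (z q)) (h : (GU p (J i)).Hom G io) (hm : ∀ u, io (z u) ∈ mx)
    (hc : ∀ c, In (mx * mx) (Tw.map h (xv p (inr c)) - x2 G i (inr c))) {f : Tw (GU p (J i))}
    (hf : In (Jl p (ZMod p) {u | ∃ c, u.1 = inr c}) f) :
    In (Jl p (ZMod p) (YW2 p J)) (Tw.map h f) := by
  refine map_Jl io hm ?_ hf
  rintro ⟨_, γ⟩ ⟨c, rfl⟩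
  rw [← sub_add_cancel (io _) (z ⟨i, (inr c, γ)⟩)]
  exact add_mem (Ideal.mem_sup_right (cor_mem hO h ((Tg.id_mx hO).mul (Tg.id_mx hO)) (hc c) γ))
    (z_Jl ⟨c, rfl⟩)

variable {τ : ∀ i, Ma.Ty (J i)} {w : ∀ i, Wall p (Gm p) (g0 p) (Uv p (J i))} {c B : ℕ}
  {T : _root_.N255.Wt.Ty w c B} {hc : ∀ i j, (τ i).dp j ≤ c}

theorem kd_w (hT : ∀ i, T.σ i = (τ i).sg p (hc i)) (i : Fin 3) (x : Uv p (J i)) :
    (w i).kd x = (τ i).kdU p x := by rw [T.kd, hT]; rfl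

/-- the field `hy` -/
theorem hy_all (hO : ∀ q, G.Hg q.2.2 (z q)) (h : (GU p (J i)).Hom G io)
    (hT : ∀ i, T.σ i = (τ i).sg p (hc i)) (hy : Tw.map h (xv p (inr true)) = x2 G i (inr true))
    (x : Uv p (J i)) (hx : (w i).kd x = none) : io (z x) = z ⟨i, x⟩ := by
  obtain ⟨x, γ⟩ := x
  obtain rfl : x = inr true := kdU_none.1 (kd_w hT i _ ▸ hx)
  exact cor_eq hO h hy γ

theorem YW2_Hv (hT : ∀ i, T.σ i = (τ i).sg p (hc i)) {j : J i} (h : (τ i).sc j ≤ 2 * c) (γ : Gm p) :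
    YW2 p J ⊆ Hv w i (inl j, γ) := by
  rintro ⟨i', x, γ'⟩ ⟨b, e⟩
  obtain rfl : x = @inr (J i') Bool b := e
  rcases b with _ | _
  · exact Hv_w T (by simp [kd_w hT, Ty.kdU]) (by rw [hT]; rfl) (by rw [hT]; exact h)
      (by simp [kd_w hT, Ty.kdU]) (by rw [hT]; rfl)
  · exact Hv_y T (by simp [kd_w hT, Ty.kdU]) (by rw [hT]; exact h.trans (by omega))
      (by simp [kd_w hT, Ty.kdU])

/-- the allowed linear transfers, weak form -/
def Tf0 (τ : ∀ i, Ma.Ty (J i)) (i : Fin 3) (j : J i) (q : Σ i, J i ⊕ Bool) : Prop :=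
  (τ i).sc j = 0 ∧ ((∃ j', q.2 = inl j' ∧ (τ i).dp j < (τ q.1).dp j') ∨ ∃ c, q.2 = inr c)

theorem Tf0.hv (hT : ∀ i, T.σ i = (τ i).sg p (hc i)) {j : J i} {q : Σ i, J i ⊕ Bool}
    (h : Tf0 τ i j q) (γ γ' : Gm p) : (⟨q.1, (q.2, γ')⟩ : Σ i, Uv p (J i)) ∈ Hv w i (inl j, γ) := by
  obtain ⟨i', x⟩ := q
  obtain ⟨h0, ⟨j' : J i', e, h1⟩ | ⟨c', e⟩⟩ := h
  · dsimp only at e h1 ⊢
    subst e
    exact Hv_dp T (by simp [kd_w hT, Ty.kdU]) (by rw [hT]; rfl) (by rw [hT]; exact h0)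
      (by simp [kd_w hT, Ty.kdU]) (by rw [hT]; rfl) (by rw [hT, hT]; exact h1)
  · exact YW2_Hv hT (by omega) γ ⟨c', e⟩

/-- the class variables -/
theorem adm_inl (hO : ∀ q, G.Hg q.2.2 (z q)) (h : (GU p (J i)).Hom G io)
    (hT : ∀ i, T.σ i = (τ i).sg p (hc i)) {d : ℕ} (hd : d < 2 * c) {j : J i}
    {lx : (Σ i, J i ⊕ Bool) → ZMod p} {xG : (Σ i, J i ⊕ Bool) → Tw G}
    (tf : ∀ q, lx q ≠ 0 → Tf0 τ i j q) (hG : ∀ q, In (mx * mx) (xG q - x2 G q.1 q.2))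
    (h1 : In (Jl p (ZMod p) (YW2 p J)) (Tw.map h (xv p (inl j)) - x2 G i (inl j) - ∑ q, lx q • xG q))
    (h2 : d + 2 ≤ (τ i).sc j → In (mx ^ ((τ i).sc j - d))
      (Tw.map h (xv p (inl j)) - x2 G i (inl j) - ∑ q, lx q • xG q)) (γ : Gm p) :
    Adm T id i (inl j, γ) (io (z (inl j, γ)) - z ⟨i, (inl j, γ)⟩) := by
  have e : (T.σ i).sc (inl j, γ) = (τ i).sc j := by rw [hT]; rfl
  by_cases hs : (τ i).sc j ≤ 2 * c
  · refine .inr ⟨by omega, ?_⟩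
    rw [image_id, ← Jl_eq]
    refine cor_mem hO h (id_Jl hO _) ?_ γ
    refine In.eq (In.add (h1.mono (Jl_mono (YW2_Hv hT hs γ))) (In.sum fun q _ => ?_))
      (sub_add_cancel _ _).symm
    by_cases h0 : lx q = 0
    · rw [h0, zero_smul]; exact Cs.in_zero
    · exact in_smul _ (In.eq (In.add ((hG q).mono le_sup_right)
        (x2_in fun γ' => z_Jl ((tf q h0).hv hT γ γ'))) (sub_add_cancel _ _).symm)
  · have h0 : ∀ q, lx q = 0 := fun q => by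
      by_contra h0
      have := (tf q h0).1
      omega
    refine .inl ⟨(τ i).sc j - d, by omega, by omega, cor_mem hO h ((Tg.id_mx hO).pow _) ?_ γ⟩
    simpa [h0] using h2 (by omega)

/-- the holonomy variable -/
theorem adm_w (hO : ∀ q, G.Hg q.2.2 (z q)) (h : (GU p (J i)).Hom G io)
    (hT : ∀ i, T.σ i = (τ i).sg p (hc i))
    (hw : In (mx * mx) (Tw.map h (xv p (inr false)) - x2 G i (inr false))) (γ : Gm p) :
    Adm T id i (inr false, γ) (io (z (inr false, γ)) - z ⟨i, (inr false, γ)⟩) :=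
  .inl ⟨2, le_rfl, by rw [hT]; exact Nat.zero_le _,
    sq (mx : Ideal (O p (ZMod p) (Σ i, Uv p (J i)))) ▸
      cor_mem hO h ((Tg.id_mx hO).mul (Tg.id_mx hO)) hw γ⟩

/-- **the field `adm`** -/
theorem adm_all (hO : ∀ q, G.Hg q.2.2 (z q)) (h : (GU p (J i)).Hom G io)
    (hT : ∀ i, T.σ i = (τ i).sg p (hc i)) {d : ℕ} (hd : d < 2 * c)
    {lx : J i → (Σ i, J i ⊕ Bool) → ZMod p} {xG : (Σ i, J i ⊕ Bool) → Tw G}
    (tf : ∀ j q, lx j q ≠ 0 → Tf0 τ i j q) (hG : ∀ q, In (mx * mx) (xG q - x2 G q.1 q.2))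
    (hw : In (mx * mx) (Tw.map h (xv p (inr false)) - x2 G i (inr false)))
    (h1 : ∀ j, In (Jl p (ZMod p) (YW2 p J))
      (Tw.map h (xv p (inl j)) - x2 G i (inl j) - ∑ q, lx j q • xG q))
    (h2 : ∀ j, d + 2 ≤ (τ i).sc j → In (mx ^ ((τ i).sc j - d))
      (Tw.map h (xv p (inl j)) - x2 G i (inl j) - ∑ q, lx j q • xG q))
    (x : Uv p (J i)) (hx : (w i).kd x ≠ none) : Adm T id i x (io (z x) - z ⟨i, x⟩) := by
  rcases x with ⟨j | _ | _, γ⟩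
  · exact adm_inl hO h hT hd (tf j) hG (h1 j) (h2 j) γ
  · exact adm_w hO h hT hw γ
  · exact absurd (by simp [kd_w hT, Ty.kdU]) hx

end Crest.Agent.N255.Io

end
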