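import Crest.Agent.N255.Tg.PV
import Crest.Agent.N255.Ku.Vers

/-!
# Row 255 (helper11): unipotent changes of coordinates and the substitution `io`
-/

set_option autoImplicit false
set_option linter.unusedSectionVars false
open Set Function

noncomputable section

namespace Crest.Agent.N255.Io

open _root_.N255.Dr _root_.N255.Dr.O Cs Tg

variable {p : ℕ} {K : Type} [CommRing K] {σ τ : Type} [Fintype σ] [Fintype τ]

/-- the ideal of the variables in `T` -/
def Zs (p : ℕ) (K : Type) [CommRing K] {σ : Type} (T : Set σ) : Ideal (O p K σ) :=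
  Ideal.span (z '' T)

omit [Fintype σ] in
theorem z_Zs {T : Set σ} {a : σ} (h : a ∈ T) : (z a : O p K σ) ∈ Zs p K T :=
  Ideal.subset_span ⟨a, h, rfl⟩

omit [Fintype σ] in
theorem Zs_le {T : Set σ} {J : Ideal (O p K σ)} : Zs p K T ≤ J ↔ ∀ a ∈ T, z a ∈ J := by
  rw [Zs, Ideal.span_le]
  exact ⟨fun h a ha => h ⟨a, ha, rfl⟩, by rintro h _ ⟨a, ha, rfl⟩; exact h a ha⟩

omit [Fintype σ] in
theorem Zs_mx (T : Set σ) : Zs p K T ≤ mx := Zs_le.2 fun a _ => z_mem a

omit [Fintype σ] in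
theorem Zs_empty : Zs p K (∅ : Set σ) = ⊥ := by simp [Zs]

omit [Fintype σ] in
theorem map_Zs {B : Type*} [CommRing B] [Algebra K B] (φ : O p K σ →ₐ[K] B) {T : Set σ} {J : Ideal B}
    (h : ∀ a ∈ T, φ (z a) ∈ J) {x : O p K σ} (hx : x ∈ Zs p K T) : φ x ∈ J :=
  (Zs_le (J := J.comap φ)).2 h hx

theorem mx_le_Ge' {F : σ → ℕ} {N0 : ℕ} (h : ∀ i, N0 ≤ F i) : mx ≤ Ge p K F N0 :=
  Ideal.span_le.2 (by
    rintro _ ⟨i, rfl⟩
    exact (flt_Ge F).anti (by have := h i; omega) (z_mem_Ge F i))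

theorem pow_le_Ge {F : σ → ℕ} {N0 : ℕ} (h : ∀ i, N0 ≤ F i) (q : ℕ) :
    mx ^ q ≤ Ge p K F (q * N0 : ℕ) := by
  induction q with
  | zero => simp [(flt_Ge F).zero]
  | succ q ih =>
    rw [pow_succ]
    exact (flt_Ge F).mul_le ih (mx_le_Ge' h) (by push_cast; rw [add_mul, one_mul])

theorem Zs_le_Ge {F : σ → ℕ} {T : Set σ} {n : ℤ} (h : ∀ a ∈ T, n ≤ F a) : Zs p K T ≤ Ge p K F n :=
  Zs_le.2 fun a ha => (flt_Ge F).anti (h a ha) (z_mem_Ge F a)

/-- order and linear part give the weight -/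
theorem sup_le_Ge {F : σ → ℕ} {N0 q : ℕ} {T : Set σ} {n : ℤ} (h0 : ∀ i, N0 ≤ F i)
    (hq : n ≤ (q * N0 : ℕ)) (h : ∀ a ∈ T, n ≤ F a) : mx ^ q ⊔ Zs p K T ≤ Ge p K F n :=
  sup_le ((pow_le_Ge h0 q).trans ((flt_Ge F).anti hq)) (Zs_le_Ge h)

variable [Fact p.Prime] [Fact ((p : K) = 0)]

omit [Fintype σ] [Fact p.Prime] in
theorem pd_pow (u : σ) (q : ℕ) {x : O p K σ} (hx : x ∈ mx ^ (q + 1)) : pd u x ∈ mx ^ q := by
  induction q generalizing x with
  | zero => simp
  | succ q ih =>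
    rw [pow_succ] at hx
    refine Submodule.mul_induction_on hx (fun a ha b hb => ?_) fun a b ha hb => by
      rw [map_add]; exact add_mem ha hb
    rw [Derivation.leibniz, smul_eq_mul, smul_eq_mul]
    exact add_mem (Ideal.mul_mem_right _ _ ha) (by
      rw [pow_succ']; exact Ideal.mul_mem_mul hb (ih ha))

omit [Fintype σ] [Fact p.Prime] in
/-- no linear term in the variable `u` -/
theorem pd_sup {T : Set σ} {u : σ} (hu : u ∉ T) {x : O p K σ} (hx : x ∈ mx ^ 2 ⊔ Zs p K T) :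
    pd u x ∈ mx := by
  obtain ⟨a, ha, b, hb, rfl⟩ := Submodule.mem_sup.1 hx
  rw [map_add]
  refine add_mem (by simpa using pd_pow u 1 ha) ?_
  suffices b ∈ mx ∧ pd u b ∈ mx from this.2
  clear hx
  induction hb using Submodule.span_induction with
  | mem x hx =>
    obtain ⟨a, ha, rfl⟩ := hx
    rw [pd_z_ne (fun e : u = a => hu (e ▸ ha))]
    exact ⟨z_mem a, zero_mem _⟩
  | zero => simp
  | add x y _ _ h h' => exact ⟨add_mem h.1 h'.1, by rw [map_add]; exact add_mem h.2 h'.2⟩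
  | smul c x _ h =>
    rw [smul_eq_mul, Derivation.leibniz, smul_eq_mul, smul_eq_mul]
    exact ⟨Ideal.mul_mem_left _ _ h.1,
      add_mem (Ideal.mul_mem_left _ _ h.2) (Ideal.mul_mem_right _ _ h.1)⟩

/-- new coordinates `f` with a unipotent linear part -/
def Un (f : σ → O p K σ) : Prop :=
  ∃ r : σ → ℕ, ∀ s, f s - z s ∈ mx ^ 2 ⊔ Zs p K {a | r s < r a}

variable {f : σ → O p K σ}

omit [Fintype σ] [Fact p.Prime] [Fact ((p : K) = 0)] in
theorem un_of_sq (h : ∀ s, f s - z s ∈ mx ^ 2) : Un f :=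
  ⟨fun _ => 0, fun s => Ideal.mem_sup_left (h s)⟩

omit [Fintype σ] [Fact p.Prime] [Fact ((p : K) = 0)] in
/-- two steps: the variables in `T` have no linear correction -/
theorem un_of_two {T : Set σ} (h : ∀ s ∈ T, f s - z s ∈ mx ^ 2)
    (h' : ∀ s ∉ T, f s - z s ∈ mx ^ 2 ⊔ Zs p K T) : Un f := by
  classical
  refine ⟨fun a => if a ∈ T then 1 else 0, fun s => ?_⟩
  by_cases hs : s ∈ T
  · exact Ideal.mem_sup_left (h s hs)
  · convert h' s hs using 3
    ext a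
    by_cases ha : a ∈ T <;> simp [hs, ha]

namespace Un

omit [Fintype σ] [Fact p.Prime] [Fact ((p : K) = 0)] in
theorem mem (h : Un f) (s : σ) : f s ∈ mx := by
  obtain ⟨r, h⟩ := h
  simpa using add_mem ((sup_le (Ideal.pow_le_self two_ne_zero) (Zs_mx _) : _ ≤ mx) (h s)) (z_mem s)

theorem bij (h : Un f) : Bijective (sub f h.mem) := by
  obtain ⟨r, hr⟩ := id h
  obtain ⟨M, hM⟩ := (finite_range r).bddAbove
  have hM' : ∀ s, r s ≤ M := fun s => hM ⟨s, rfl⟩
  let F : σ → ℕ := fun s => M + 1 + r s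
  have h1 : ∀ s, f s - z s ∈ Ge p K F (F s + 1) := fun s =>
    sup_le_Ge (N0 := M + 1) (fun i => Nat.le_add_right _ _)
      (by have := hM' s; simp only [F]; push_cast; omega)
      (fun a ha => by have : r s < r a := ha; simp only [F]; push_cast; omega) (hr s)
  have h2 : ∀ (n : ℤ) x, x ∈ Ge p K F n → sub f h.mem x - x ∈ Ge p K F (n + 1) := fun n x hx =>
    sub_Ge (ψ := AlgHom.id K _) (flt_Ge F) (fun i => z_mem_Ge F i) (fun i => by
      simpa using add_mem ((flt_Ge F).anti (by omega) (h1 i)) (z_mem_Ge F i))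
      (fun i => by simpa using h1 i) hx
  obtain ⟨N, hN⟩ := Ge_bot (p := p) (K := K) F
  refine ⟨(injective_iff_map_eq_zero _).2 fun x hx => ?_, fun y => ?_⟩
  · have : ∀ n : ℕ, x ∈ Ge p K F n := fun n => by
      induction n with
      | zero => simp [(flt_Ge F).zero]
      | succ n ih => simpa [hx] using h2 n x ih
    simpa [hN N le_rfl] using this N
  · have : ∀ n : ℕ, ∃ x, y - sub f h.mem x ∈ Ge p K F n := fun n => by
      induction n with
      | zero => exact ⟨0, by simp [(flt_Ge F).zero]⟩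
      | succ n ih =>
        obtain ⟨x, hx⟩ := ih
        refine ⟨x + (y - sub f h.mem x), ?_⟩
        have := neg_mem (h2 n _ hx)
        rw [neg_sub] at this
        rwa [map_add, ← sub_sub]
    obtain ⟨x, hx⟩ := this N
    exact ⟨x, (sub_eq_zero.1 (by simpa [hN N le_rfl] using hx)).symm⟩

/-- the substitution `z s ↦ f s` -/
def crd (h : Un f) : O p K σ ≃ₐ[K] O p K σ := AlgEquiv.ofBijective _ h.bij

/-- the inverse substitution: `f s ↦ z s` -/
def th (h : Un f) : O p K σ →ₐ[K] O p K σ := h.crd.symm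

/-- the substitution as a homomorphism -/
def fw (h : Un f) : O p K σ →ₐ[K] O p K σ := sub f h.mem

variable (h : Un f)

omit [Fintype σ] in
@[simp] theorem fw_z (s : σ) : h.fw (z s) = f s := sub_z _ _ _

@[simp] theorem th_fw (x : O p K σ) : h.th (h.fw x) = x := h.crd.symm_apply_apply x

@[simp] theorem fw_th (x : O p K σ) : h.fw (h.th x) = x := h.crd.apply_symm_apply x

@[simp] theorem th_f (s : σ) : h.th (f s) = z s := by rw [← h.fw_z, th_fw]

theorem th_inj : Injective h.th := h.crd.symm.injective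

theorem th_surj : Surjective h.th := h.crd.symm.surjective

theorem th_fix {s : σ} (e : f s = z s) : h.th (z s) = z s := by rw [← e, th_f, e]

theorem fw_mx {x : O p K σ} (hx : x ∈ mx) : h.fw x ∈ mx := map_mx _ (by simpa using h.mem) hx

theorem th_mx {x : O p K σ} (hx : x ∈ mx) : h.th x ∈ mx := by
  have : ∀ y : O p K σ, aug (h.fw y) = aug y := fun y => AlgHom.congr_fun
    (hom_ext (f := aug.comp h.fw) (g := aug) fun i => by simpa using mem_mx.1 (h.mem i)) y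
  rw [mem_mx, ← this, fw_th]
  exact mem_mx.1 hx

theorem th_pow {q : ℕ} {x : O p K σ} (hx : x ∈ mx ^ q) : h.th x ∈ mx ^ q :=
  map_mx_pow _ (fun i => h.th_mx (z_mem i)) hx

theorem fw_pow {q : ℕ} {x : O p K σ} (hx : x ∈ mx ^ q) : h.fw x ∈ mx ^ q :=
  map_mx_pow _ (fun i => h.fw_mx (z_mem i)) hx

theorem map_th_mx : mx.map h.th = mx := le_antisymm
  (Ideal.map_le_iff_le_comap.2 fun y hy => h.th_mx hy) fun y hy => by
    rw [← h.th_fw y]; exact Ideal.mem_map_of_mem _ (h.fw_mx hy)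

theorem th_sub {q : ℕ} {s : σ} (e : f s - z s ∈ mx ^ q) : h.th (z s) - z s ∈ mx ^ q := by
  simpa using neg_mem (h.th_pow e)

theorem th_sup {T : Set σ} (hT : ∀ a ∈ T, f a - z a ∈ mx ^ 2) {x : O p K σ}
    (hx : x ∈ mx ^ 2 ⊔ Zs p K T) : h.th x ∈ mx ^ 2 ⊔ Zs p K T := by
  obtain ⟨a, ha, b, hb, rfl⟩ := Submodule.mem_sup.1 hx
  rw [map_add]
  refine add_mem (Ideal.mem_sup_left (h.th_pow ha)) (map_Zs _ (fun a ha => ?_) hb)
  simpa using add_mem (Ideal.mem_sup_left (h.th_sub (hT a ha))) (Ideal.mem_sup_right (z_Zs ha))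

/-- fixed variables generate a fixed ideal -/
theorem th_Zs {T : Set σ} (hT : ∀ a ∈ T, f a = z a) {x : O p K σ} (hx : x ∈ Zs p K T) :
    h.th x ∈ Zs p K T := map_Zs _ (fun a ha => by rw [h.th_fix (hT a ha)]; exact z_Zs ha) hx

variable {Γ : Type*} [AddCommGroup Γ] [Fintype Γ] [DecidableEq Γ] {GO : Gr Γ K (O p K σ)}
  {d : σ → Γ}

theorem fw_hom (hO : ∀ i, GO.Hg (d i) (z i)) (hg : ∀ s, GO.Hg (d s) (f s)) : GO.Hom GO h.fw :=
  hom_of_z hO (by simpa using hg)

theorem th_hom (hO : ∀ i, GO.Hg (d i) (z i)) (hg : ∀ s, GO.Hg (d s) (f s)) : GO.Hom GO h.th :=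
  fun a x => by
    conv_lhs => rw [← h.fw_th x, ← h.fw_hom hO hg, th_fw]

end Un

section io

variable {f : σ → O p K σ} {g : τ → O p K τ} (hf : Un f) (hg : Un g) (inc : σ → τ)

/-- the inclusion `inc` read in the new coordinates `f`, `g` -/
def io : O p K σ →ₐ[K] O p K τ := hg.th.comp ((rn inc).comp hf.fw)

theorem io_z (b : σ) : io hf hg inc (z b) = hg.th (rn inc (f b)) := by simp [io]

theorem io_th (x : O p K σ) : io hf hg inc (hf.th x) = hg.th (rn inc x) := by simp [io]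

theorem io_comp : (io hf hg inc).comp hf.th = hg.th.comp (rn inc) := AlgHom.ext (io_th hf hg inc)

theorem io_sub (b : σ) : io hf hg inc (z b) - z (inc b) = hg.th (rn inc (f b) - g (inc b)) := by
  rw [map_sub, Un.th_f, io_z]

omit [Fintype σ] [Fintype τ] [Fact p.Prime] [Fact ((p : K) = 0)] in
theorem rn_mx {x : O p K σ} (hx : x ∈ mx) : rn inc x ∈ mx :=
  map_mx _ (fun i => by simpa using z_mem _) hx

theorem io_mx {x : O p K σ} (hx : x ∈ mx) : io hf hg inc x ∈ mx :=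
  hg.th_mx (rn_mx inc (hf.fw_mx hx))

theorem io_fix {b : σ} (e : f b = z b) (e' : g (inc b) = z (inc b)) :
    io hf hg inc (z b) = z (inc b) := by rw [io_z, e, rn_z, hg.th_fix e']

theorem io_eq {b : σ} (e : g (inc b) = rn inc (f b)) : io hf hg inc (z b) = z (inc b) := by
  rw [io_z, ← e, Un.th_f]

theorem io_pow {b : σ} {q : ℕ} (e : rn inc (f b) - g (inc b) ∈ mx ^ q) :
    io hf hg inc (z b) - z (inc b) ∈ mx ^ q := by rw [io_sub]; exact hg.th_pow e

theorem io_sup {b : σ} {T : Set τ} (hT : ∀ a ∈ T, g a - z a ∈ mx ^ 2)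
    (e : rn inc (f b) - g (inc b) ∈ mx ^ 2 ⊔ Zs p K T) :
    io hf hg inc (z b) - z (inc b) ∈ mx ^ 2 ⊔ Zs p K T := by rw [io_sub]; exact hg.th_sup hT e

/-- the exact linear part -/
theorem io_lin {b : σ} {la : τ → K} (hT : ∀ a, la a ≠ 0 → g a - z a ∈ mx ^ 2)
    (e : rn inc (f b) - g (inc b) - ∑ a, la a • z a ∈ mx ^ 2) :
    io hf hg inc (z b) - z (inc b) - ∑ a, la a • z a ∈ mx ^ 2 := by
  have h1 : ∑ a, la a • (hg.th (z a) - z a) ∈ (mx : Ideal (O p K τ)) ^ 2 := sum_mem fun a _ => by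
    by_cases h : la a = 0
    · simp [h]
    · exact Submodule.smul_of_tower_mem _ _ (hg.th_sub (hT a h))
  convert add_mem (hg.th_pow e) h1 using 1
  simp only [io_sub, map_sub, map_sum, map_smul, smul_sub, Finset.sum_sub_distrib]
  ring

variable {Γ : Type*} [AddCommGroup Γ] [Fintype Γ] [DecidableEq Γ] {G : Gr Γ K (O p K σ)}
  {G' : Gr Γ K (O p K τ)} {d : σ → Γ} {d' : τ → Γ}

omit [Fintype τ] [Fact p.Prime] [Fact ((p : K) = 0)] in
theorem rn_hom (hO : ∀ i, G.Hg (d i) (z i)) (hO' : ∀ i, G'.Hg (d' i) (z i))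
    (hd : ∀ b, d' (inc b) = d b) : G.Hom G' (rn inc) :=
  hom_of_z hO fun i => by simpa [hd] using hO' (inc i)

theorem io_hom (hO : ∀ i, G.Hg (d i) (z i)) (hO' : ∀ i, G'.Hg (d' i) (z i))
    (hd : ∀ b, d' (inc b) = d b) (h1 : ∀ s, G.Hg (d s) (f s)) (h2 : ∀ s, G'.Hg (d' s) (g s)) :
    G.Hom G' (io hf hg inc) :=
  (hg.th_hom hO' h2).comp ((rn_hom inc hO hO' hd).comp (hf.fw_hom hO h1))

end io

end Crest.Agent.N255.Io

end
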