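import Crest.Agent.N255.Io.Crd
import Crest.Agent.N255.Wt.Vb
import Crest.Agent.N255.Cs.Sing

/-!
# Row 255 (helper11): coordinates at a vertex.  Near variables get the coordinates of their walls, far
variables the prescribed functions `gB`; transport of connections.
-/

set_option autoImplicit false
set_option linter.unusedSectionVars false
open Set Function

noncomputable section

namespace Crest.Agent.N255.Io

open _root_.N255.Dr _root_.N255.Dr.O Cs Tg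

section gen

variable {p : ℕ} [Fact p.Prime] {K : Type} [CommRing K] [Fact ((p : K) = 0)] {ι τ : Type}
  {s : ι → Type} [∀ i, Fintype (s i)] [Fintype τ]

/-- raw data at a vertex: `inc` the copies of the wall variables, `nr` the variables which keep the
coordinates `f` of their walls, `gB` the coordinates of all other variables -/
structure Vc (p : ℕ) (K : Type) [CommRing K] (s : ι → Type) (τ : Type) where
  inc : ∀ i, s i → τ
  nr : ∀ i, s i → Prop
  f : ∀ i, s i → O p K (s i)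
  gB : τ → O p K τ
  inj : ∀ i x j y, nr j y → inc i x = inc j y → (⟨i, x⟩ : Σ i, s i) = ⟨j, y⟩
  hf : ∀ i x, f i x - z x ∈ (mx : Ideal (O p K (s i))) ^ 2
  hg : ∀ a, (∀ i x, nr i x → inc i x ≠ a) →
    gB a - z a ∈ mx ^ 2 ⊔ Zs p K {a | ∃ i x, nr i x ∧ inc i x = a}

namespace Vc

variable (v : Vc p K s τ)

/-- the copies of the near variables -/
def T0 : Set τ := {a | ∃ i x, v.nr i x ∧ v.inc i x = a}

open Classical in
/-- the coordinates at the vertex -/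
def g (a : τ) : O p K τ :=
  if h : ∃ q : Σ i, s i, v.nr q.1 q.2 ∧ v.inc q.1 q.2 = a then
    rn (v.inc h.choose.1) (v.f _ h.choose.2) else v.gB a

theorem g_near {i : ι} {x : s i} (h : v.nr i x) : v.g (v.inc i x) = rn (v.inc i) (v.f i x) := by
  have h1 : ∃ q : Σ i, s i, v.nr q.1 q.2 ∧ v.inc q.1 q.2 = v.inc i x := ⟨⟨i, x⟩, h, rfl⟩
  have e : h1.choose = ⟨i, x⟩ := v.inj _ _ _ _ h h1.choose_spec.2
  rw [g, dif_pos h1, e]

theorem g_not {a : τ} (h : a ∉ v.T0) : v.g a = v.gB a :=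
  dif_neg fun ⟨q, h1, h2⟩ => h ⟨q.1, q.2, h1, h2⟩

theorem far_T0 {i : ι} {x : s i} (h : ¬v.nr i x) : v.inc i x ∉ v.T0 := fun ⟨j, y, h1, h2⟩ => by
  cases v.inj _ _ _ _ h1 h2.symm
  exact h h1

theorem g_far {i : ι} {x : s i} (h : ¬v.nr i x) : v.g (v.inc i x) = v.gB (v.inc i x) :=
  v.g_not (v.far_T0 h)

theorem g_T0 {a : τ} (h : a ∈ v.T0) : v.g a - z a ∈ (mx : Ideal (O p K τ)) ^ 2 := by
  obtain ⟨i, x, h, rfl⟩ := h
  rw [v.g_near h, ← rn_z (v.inc i), ← map_sub]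
  exact map_mx_pow _ (fun i => by simpa using z_mem _) (v.hf i x)

theorem unf (i : ι) : Un (v.f i) := un_of_sq (v.hf i)

theorem ung : Un v.g := un_of_two (T := v.T0) (fun _ => v.g_T0) fun a ha => by
  rw [v.g_not ha]
  exact v.hg a fun i x h e => ha ⟨i, x, h, e⟩

/-- raw coordinates to new coordinates on the wall `i` -/
abbrev tw (i : ι) : O p K (s i) →ₐ[K] O p K (s i) := (v.unf i).th

/-- raw coordinates to new coordinates at the vertex -/
abbrev tv : O p K τ →ₐ[K] O p K τ := v.ung.th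

/-- the vertex family read on the wall `i` -/
def io (i : ι) : O p K (s i) →ₐ[K] O p K τ := Io.io (v.unf i) v.ung (v.inc i)

theorem io_tw (i : ι) (x : O p K (s i)) : v.io i (v.tw i x) = v.tv (rn (v.inc i) x) := io_th _ _ _ x

theorem tw_f (i : ι) (x : s i) : v.tw i (v.f i x) = z x := Un.th_f _ x

theorem tv_gB {a : τ} (h : a ∉ v.T0) : v.tv (v.gB a) = z a := by rw [← v.g_not h, Un.th_f]

theorem tv_fix {a : τ} (h : a ∉ v.T0) (e : v.gB a = z a) : v.tv (z a) = z a :=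
  v.ung.th_fix (by rw [v.g_not h, e])

theorem tv_fix' {i : ι} {x : s i} (h : v.nr i x) (e : v.f i x = z x) :
    v.tv (z (v.inc i x)) = z (v.inc i x) := v.ung.th_fix (by rw [v.g_near h, e, rn_z])

theorem tv_T0 {a : τ} (h : a ∈ v.T0) : v.tv (z a) - z a ∈ (mx : Ideal (O p K τ)) ^ 2 :=
  v.ung.th_sub (v.g_T0 h)

theorem io_near {i : ι} {x : s i} (h : v.nr i x) : v.io i (z x) = z (v.inc i x) :=
  io_eq _ _ _ (v.g_near h)

theorem io_far {i : ι} {x : s i} (h : ¬v.nr i x) :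
    v.io i (z x) - z (v.inc i x) = v.tv (rn (v.inc i) (v.f i x) - v.gB (v.inc i x)) := by
  rw [io, io_sub, v.g_far h]

theorem io_deep {i : ι} {x : s i} (h : ¬v.nr i x) {q : ℕ}
    (e : rn (v.inc i) (v.f i x) - v.gB (v.inc i x) ∈ mx ^ q) :
    v.io i (z x) - z (v.inc i x) ∈ mx ^ q := by rw [v.io_far h]; exact v.ung.th_pow e

theorem io_macro {i : ι} {x : s i} (h : ¬v.nr i x) {T : Set τ} (hT : T ⊆ v.T0)
    (e : rn (v.inc i) (v.f i x) - v.gB (v.inc i x) ∈ mx ^ 2 ⊔ Zs p K T) :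
    v.io i (z x) - z (v.inc i x) ∈ mx ^ 2 ⊔ Zs p K T := by
  rw [v.io_far h]; exact v.ung.th_sup (fun a ha => v.g_T0 (hT ha)) e

theorem io_mx (i : ι) {x : O p K (s i)} (hx : x ∈ mx) : v.io i x ∈ mx := Io.io_mx _ _ _ hx

theorem io_pow (i : ι) {q : ℕ} {x : O p K (s i)} (hx : x ∈ mx ^ q) : v.io i x ∈ mx ^ q :=
  map_mx_pow _ (fun y => v.io_mx i (z_mem y)) hx

/-- the linear part of `io` only contains the own copy and near variables -/
theorem io_sup {i : ι} {x : s i}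
    (e : ¬v.nr i x → rn (v.inc i) (v.f i x) - v.gB (v.inc i x) ∈ mx ^ 2 ⊔ Zs p K v.T0) :
    v.io i (z x) - z (v.inc i x) ∈ mx ^ 2 ⊔ Zs p K v.T0 := by
  by_cases h : v.nr i x
  · rw [v.io_near h, sub_self]; exact zero_mem _
  · exact v.io_macro h subset_rfl (e h)

theorem pd_io {i : ι} {x : s i}
    (e : ¬v.nr i x → rn (v.inc i) (v.f i x) - v.gB (v.inc i x) ∈ mx ^ 2 ⊔ Zs p K v.T0) {u : τ}
    (hu : u ∉ v.T0) (hu' : u ≠ v.inc i x) : pd u (v.io i (z x)) ∈ mx := by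
  have := pd_sup hu (v.io_sup e)
  rwa [map_sub, pd_z_ne hu', sub_zero] at this

theorem pd_io_self {i : ι} {x : s i} (h : ¬v.nr i x)
    (e : rn (v.inc i) (v.f i x) - v.gB (v.inc i x) ∈ mx ^ 2 ⊔ Zs p K v.T0) :
    pd (v.inc i x) (v.io i (z x)) - 1 ∈ mx := by
  have := pd_sup (v.far_T0 h) (v.io_sup fun _ => e)
  rwa [map_sub, pd_z_self] at this

/-- **far variables are monotone**: order `q` or order two plus heavier near variables -/
theorem io_Ge {i : ι} {x : s i} (h : ¬v.nr i x) {o : τ → ℕ} {N0 : ℕ} {n : ℤ} (h0 : ∀ a, N0 ≤ o a)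
    (e : (∃ q : ℕ, rn (v.inc i) (v.f i x) - v.gB (v.inc i x) ∈ mx ^ q ∧ n ≤ (q * N0 : ℕ)) ∨
      ∃ T ⊆ v.T0, rn (v.inc i) (v.f i x) - v.gB (v.inc i x) ∈ mx ^ 2 ⊔ Zs p K T ∧
        n ≤ (2 * N0 : ℕ) ∧ ∀ a ∈ T, n ≤ o a) :
    v.io i (z x) - z (v.inc i x) ∈ Ge p K o n := by
  rcases e with ⟨q, e, hq⟩ | ⟨T, hT, e, hq, ho⟩
  · exact (flt_Ge o).anti hq (pow_le_Ge h0 q (v.io_deep h e))
  · exact sup_le_Ge h0 hq ho (v.io_macro h hT e)

variable {Γ : Type*} [AddCommGroup Γ] [Fintype Γ] [DecidableEq Γ]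

/-- gradings -/
structure Gd (G : ∀ i, Gr Γ K (O p K (s i))) (G' : Gr Γ K (O p K τ)) (d : ∀ i, s i → Γ) (d' : τ → Γ) :
    Prop where
  hO : ∀ i x, (G i).Hg (d i x) (z x)
  hO' : ∀ a, G'.Hg (d' a) (z a)
  hd : ∀ i x, d' (v.inc i x) = d i x
  hf : ∀ i x, (G i).Hg (d i x) (v.f i x)
  hg : ∀ a, a ∉ v.T0 → G'.Hg (d' a) (v.gB a)

variable {v} {G : ∀ i, Gr Γ K (O p K (s i))} {G' : Gr Γ K (O p K τ)} {d : ∀ i, s i → Γ} {d' : τ → Γ}
  (h : v.Gd G G' d d')
include h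

theorem Gd.rn (i : ι) : (G i).Hom G' (rn (v.inc i)) := rn_hom _ (h.hO i) h.hO' (h.hd i)

theorem Gd.g (a : τ) : G'.Hg (d' a) (v.g a) := by
  by_cases ha : a ∈ v.T0
  · obtain ⟨i, x, hx, rfl⟩ := ha
    rw [v.g_near hx, h.hd]
    exact (h.rn i).hg (h.hf i x)
  · rw [v.g_not ha]; exact h.hg a ha

theorem Gd.tw (i : ι) : (G i).Hom (G i) (v.tw i) := (v.unf i).th_hom (h.hO i) (h.hf i)

theorem Gd.tv : G'.Hom G' v.tv := v.ung.th_hom h.hO' h.g

theorem Gd.io (i : ι) : (G i).Hom G' (v.io i) :=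
  io_hom _ _ _ (h.hO i) h.hO' (h.hd i) (h.hf i) h.g

end Vc

end gen

section tw

open Tw Tp

variable {p : ℕ} [Fact p.Prime] {K : Type} [CommRing K] [Fact ((p : K) = 0)] {ι τ : Type}
  {s : ι → Type} [∀ i, Fintype (s i)] [Fintype τ] {v : Vc p K s τ}
  {G : ∀ i, Gr (Gm p) K (O p K (s i))} {G' : Gr (Gm p) K (O p K τ)} {d : ∀ i, s i → Gm p}
  {d' : τ → Gm p} (h : v.Gd G G' d d') {X : Type} [TopologicalSpace X] {n : ℕ}

/-- an element of the twisted ring whose components are coordinates becomes the generic element -/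
theorem map_XX {σ κ : Type} [Fintype σ] {GO : Gr (Gm p) K (O p K σ)} {φ : O p K σ →ₐ[K] O p K σ}
    (hφ : GO.Hom GO φ) (e : κ × Gm p → σ) (j : κ) {x : Tw GO}
    (hx : ∀ γ, φ (GO.pr γ (o GO x)) = z (e (j, γ))) : Tw.map hφ x = Ku.XX GO e j := by
  apply (o GO).injective
  rw [o_map, ← GO.sum (o GO x), map_sum]
  exact Finset.sum_congr rfl fun γ _ => hx γ

theorem Vc.Gd.map_io (i : ι) (x : Tw (G i)) :
    Tw.map (h.io i) (Tw.map (h.tw i) x) = Tw.map h.tv (Tw.map (h.rn i) x) := v.io_tw i _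

theorem Vc.Gd.um_io (i : ι) (u : (Tw (G i))ˣ) : um (h.io i) (um (h.tw i) u) = um h.tv (um (h.rn i) u) :=
  Units.ext (h.map_io i _)

theorem Vc.Gd.mp_io (i : ι) (g : Sx n X → (Tw (G i))ˣ) :
    mp (h.io i) (mp (h.tw i) g) = mp h.tv (mp (h.rn i) g) := funext fun σ => h.um_io i (g σ)

/-- **comparison in the new coordinates** -/
theorem Vc.Gd.cmp (i : ι) {P : Sb X} {g : Cn (G i) X} {g' : Cn G' X} {J J' : Ideal (O p K τ)}
    (hJ : ∀ x ∈ J, v.tv x ∈ J') (e : CI P J (dif g' (mp (h.rn i) g))) :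
    CI P J' (dif (mp h.tv g') (mp (h.io i) (mp (h.tw i) g))) := fun σ hσ => by
  rw [h.mp_io]
  have := hJ _ (e σ hσ)
  rwa [← o_map h.tv, dif, map_sub] at this

theorem Vc.Gd.cmp_pow (i : ι) {P : Sb X} {g : Cn (G i) X} {g' : Cn G' X} {q : ℕ}
    (e : CI P (mx ^ q) (dif g' (mp (h.rn i) g))) :
    CI P (mx ^ q) (dif (mp h.tv g') (mp (h.io i) (mp (h.tw i) g))) :=
  h.cmp i (fun _ => v.ung.th_pow) e

end tw

section std

open _root_.N255.Core (Wall Ok Hi)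
open _root_.N255.Wt

variable {p : ℕ} [Fact p.Prime] {Γ : Type} [AddCommGroup Γ] {δ : Γ} {s : Fin 3 → Type}
  [∀ i, Fintype (s i)] {w : ∀ i, Wall p Γ δ (s i)} {t : Fin 3 → Bool}

theorem cp_inj {i j : Fin 3} {x : s i} {y : s j} (e : cp w t i x = cp w t j y) :
    (⟨i, x⟩ : Σ i, s i) = ⟨j, y⟩ := by
  unfold cp at e
  split_ifs at e
  · exact congrArg Subtype.val (Sum.inr.inj e)
  · exact congrArg (fun q => q.1.1) (Sum.inl.inj e)

/-- the standard vertex coordinates: `f` on the walls, `gB` for the far variables, `m` unchanged -/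
def std (w : ∀ i, Wall p Γ δ (s i)) (t : Fin 3 → Bool) (f : ∀ i, s i → O p (ZMod p) (s i))
    (gB : B w t → O p (ZMod p) (V w t ⊕ B w t))
    (hf : ∀ i x, f i x - z x ∈ (mx : Ideal (O p (ZMod p) (s i))) ^ 2)
    (hg : ∀ b, gB b - z (.inr b) ∈ mx ^ 2 ⊔
      Zs p (ZMod p) {a | ∃ i x, (w i).kd x ≠ some (!t i) ∧ cp w t i x = a}) :
    Vc p (ZMod p) s (V w t ⊕ B w t) where
  inc := cp w t
  nr i x := (w i).kd x ≠ some (!t i)
  f := f
  gB := Sum.elim (fun a => z (.inl a)) gB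
  inj _ _ _ _ _ := cp_inj
  hf := hf
  hg a _ := by
    rcases a with a | b
    · simp
    · exact hg b

section
variable {f : ∀ i, s i → O p (ZMod p) (s i)} {gB : B w t → O p (ZMod p) (V w t ⊕ B w t)}
  {hf : ∀ i x, f i x - z x ∈ (mx : Ideal (O p (ZMod p) (s i))) ^ 2}
  {hg : ∀ b, gB b - z (.inr b) ∈ mx ^ 2 ⊔
      Zs p (ZMod p) {a | ∃ i x, (w i).kd x ≠ some (!t i) ∧ cp w t i x = a}}

theorem std_near (x0 : V w t) (i : Fin 3) (x : s i) (h : (w i).kd x ≠ some (!t i)) :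
    (std w t f gB hf hg).nr i x ∧
      (std w t f gB hf hg).inc i x = .inl ((vsV x0).em (⟨i, x⟩, false)) := ⟨h, cp_near x0 h⟩

theorem std_far {i : Fin 3} {x : s i} (h : (w i).kd x = some (!t i)) :
    ¬(std w t f gB hf hg).nr i x ∧ (std w t f gB hf hg).inc i x = .inr ⟨⟨i, x⟩, h⟩ :=
  ⟨fun h' => h' h, cp_far h⟩

theorem std_inr (b : B w t) : Sum.inr b ∉ (std w t f gB hf hg).T0 := fun ⟨i, x, h, e⟩ => by
  change cp w t i x = _ at e
  rw [cp, dif_neg h] at e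
  cases e

theorem std_m {a : V w t} (h : a.1.2 = true) (i : Fin 3) (x : s i) : Sum.inl a ≠ cp w t i x := fun e => by
  unfold cp at e
  split_ifs at e
  cases e
  simp at h

theorem std_m' {a : V w t} (h : a.1.2 = true) : Sum.inl a ∉ (std w t f gB hf hg).T0 :=
  fun ⟨i, x, _, e⟩ => std_m h i x e.symm

theorem std_tv_m {a : V w t} (h : a.1.2 = true) :
    (std w t f gB hf hg).tv (z (.inl a)) = z (.inl a) := Vc.tv_fix _ (std_m' h) rfl

theorem std_tv_B (b : B w t) : (std w t f gB hf hg).tv (gB b) = z (.inr b) := Vc.tv_gB _ (std_inr b)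

end

variable {U : Type} [Fintype U] (u : Vs w t U) {v : Vc p (ZMod p) s (U ⊕ B w t)} {c : ℕ}

/-- the field `near` -/
theorem near_of (h1 : ∀ i x, (w i).kd x ≠ some (!t i) →
      v.nr i x ∧ v.inc i x = .inl (u.em (⟨i, x⟩, false))) (o : Fin 3 → U ⊕ B w t → ℕ) (N : ℕ) :
    ∀ i x, (w i).kd x ≠ some (!t i) →
      Hi (o i) (N + (w i).F x) (v.io i (z x) - z (.inl (u.em (⟨i, x⟩, false)))) := fun i x h => by
  rw [v.io_near (h1 i x h).1, (h1 i x h).2, sub_self]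
  exact fun a ha => absurd (map_zero _) ha

/-- the field `hy` -/
theorem hy_of (h1 : ∀ i x, (w i).kd x ≠ some (!t i) →
      v.nr i x ∧ v.inc i x = .inl (u.em (⟨i, x⟩, false))) :
    ∀ i x, (w i).kd x = none → v.io i (z x) - z (.inl (u.em (⟨i, x⟩, false))) ∈
      Ideal.span {g | ∃ y, (w i).kd y = none ∧ g = z (.inl (u.em (⟨i, y⟩, false)))} * mx :=
  fun i x h => by
    have h' : (w i).kd x ≠ some (!t i) := by simp [h]
    rw [v.io_near (h1 i x h').1, (h1 i x h').2, sub_self]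
    exact zero_mem _

/-- the field `far` for one variable -/
theorem far_of {i : Fin 3} {x : s i} (h : (w i).kd x = some (!t i)) (h1 : ¬v.nr i x)
    (h2 : v.inc i x = .inr ⟨⟨i, x⟩, h⟩)
    (e : (∃ q : ℕ, rn (v.inc i) (v.f i x) - v.gB (v.inc i x) ∈ mx ^ q ∧
        N0 c + (w i).F x < N0 c * q) ∨
      ∃ T ⊆ v.T0, rn (v.inc i) (v.f i x) - v.gB (v.inc i x) ∈ mx ^ 2 ⊔ Zs p (ZMod p) T ∧
        N0 c + (w i).F x < 2 * N0 c ∧ ∀ a ∈ T, N0 c + (w i).F x < u.oA c i a) :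
    Hi (u.oA c i) (N0 c + (w i).F x) (v.io i (z x)) := by
  have k1 := v.io_Ge h1 (n := (N0 c + (w i).F x : ℕ) + 1) (u.le_oA (c := c) i) (e.imp
    (fun ⟨q, e, hq⟩ => ⟨q, e, by rw [mul_comm q]; omega⟩)
    fun ⟨T, hT, e, hq, ho⟩ => ⟨T, hT, e, by omega, fun a ha => by have := ho a ha; omega⟩)
  have k2 := z_mem_Ge (p := p) (K := ZMod p) (u.oA c i) (v.inc i x)
  rw [show u.oA c i (v.inc i x) = N0 c + (w i).F x + 1 by rw [h2]; exact ob_own h] at k2
  rw [hi_Ge]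
  simpa using add_mem k1 k2

/-- foreign near variables of larger weight are heavy enough for a macroscopic far variable -/
theorem lt_oA {i j : Fin 3} {x : s i} {y : s j}
    (hy : (w j).kd y ≠ some (!t j)) (h1 : N0 c + (w i).F x < N1 c) (h2 : (w i).F x < (w j).F y) :
    N0 c + (w i).F x < u.oA c i (.inl (u.em (⟨j, y⟩, false))) := by
  have k1 := u.min_le_oA (c := c) i (.inl (u.em (⟨j, y⟩, false)))
  have k2 := u.oA_le (c := c) j (.inl (u.em (⟨j, y⟩, false)))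
  rw [u.oA_em hy] at k2
  omega

end std

end Crest.Agent.N255.Io

end
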